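import Crest.Agent.X212.Pic56.Mat
import Crest.Agent.X212.Line51.Lit
import Crest.Agent.X212.Sep15.Defs
import Crest.Agent.X212.Orx52.Gen

-- ▼ part X212/Lsf39/Top
section

/-!
# X212 / Lsf39 / Top (helper39): frames with point singularities on a surface

* `LE a b q` : `a = exp ψ · b` on a punctured neighbourhood of `q`;
* `Ix P s q g` : near `q` the frame `s` is `g` times a frame which extends over `q`, up to a logarithm;
* `exists_ix` (index), `remove` (index zero), `move` (along `(z - b) / (z - a)`);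
* `off_point` : a frame off a finite set gives a frame off any point;
* `Ty P c q n`, `Ty.move`, `Ty.comp`, `Ty.hom` : the normal form `n [q]`.
-/

set_option autoImplicit false
set_option linter.unusedSectionVars false

open Set Function Filter Complex Metric Matrix
open scoped Topology
open Crest.Agent.X212.Pic56

namespace Crest.Agent.X212.Lsf39

noncomputable section

variable {X : Type*} [TopologicalSpace X] {a b c a' b' : X → ℂ} {q q' : X}

/-- equality up to a logarithm on a punctured neighbourhood -/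
def LE (a b : X → ℂ) (q : X) : Prop :=
  ∃ U ∈ 𝓝 q, ∃ ψ : X → ℂ, ContinuousOn ψ (U \ {q}) ∧ ∀ x ∈ U \ {q}, a x = exp (ψ x) * b x

theorem LE.of_eq (h : ∀ᶠ x in 𝓝[≠] q, a x = b x) : LE a b q :=
  ⟨_, eventually_nhdsWithin_iff.1 h, 0, continuousOn_const, fun x hx => by simpa using hx.1 hx.2⟩

theorem LE.refl (a : X → ℂ) (q : X) : LE a a q := .of_eq (.of_forall fun _ => rfl)

theorem LE.symm (h : LE a b q) : LE b a q := by
  obtain ⟨U, hU, ψ, h1, h2⟩ := h
  exact ⟨U, hU, fun x => -ψ x, h1.neg, fun x hx => by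
    rw [h2 x hx, ← mul_assoc, ← exp_add, neg_add_cancel, exp_zero, one_mul]⟩

theorem LE.mul (h : LE a b q) (h' : LE a' b' q) : LE (a * a') (b * b') q := by
  obtain ⟨U, hU, ψ, h1, h2⟩ := h
  obtain ⟨U', hU', ψ', h1', h2'⟩ := h'
  refine ⟨U ∩ U', inter_mem hU hU', ψ + ψ', (h1.mono fun x hx => ⟨hx.1.1, hx.2⟩).add
    (h1'.mono fun x hx => ⟨hx.1.2, hx.2⟩), fun x hx => ?_⟩
  simp only [Pi.mul_apply, Pi.add_apply, h2 x ⟨hx.1.1, hx.2⟩, h2' x ⟨hx.1.2, hx.2⟩, exp_add]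
  ring

theorem LE.trans (h : LE a b q) (h' : LE b c q) : LE a c q := by
  obtain ⟨U, hU, ψ, h1, h2⟩ := h
  obtain ⟨U', hU', ψ', h1', h2'⟩ := h'
  refine ⟨U ∩ U', inter_mem hU hU', ψ + ψ', (h1.mono fun x hx => ⟨hx.1.1, hx.2⟩).add
    (h1'.mono fun x hx => ⟨hx.1.2, hx.2⟩), fun x hx => ?_⟩
  simp only [Pi.add_apply, h2 x ⟨hx.1.1, hx.2⟩, h2' x ⟨hx.1.2, hx.2⟩, exp_add, mul_assoc]

theorem LE.zpow (h : LE a b q) (n : ℤ) : LE (fun x => a x ^ n) (fun x => b x ^ n) q := by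
  obtain ⟨U, hU, ψ, h1, h2⟩ := h
  exact ⟨U, hU, fun x => n * ψ x, continuousOn_const.mul h1, fun x hx => by
    simp only [h2 x hx, mul_zpow, exp_int_mul]⟩

theorem LE.star (h : LE a b q) : LE (fun x => star (a x)) (fun x => star (b x)) q := by
  obtain ⟨U, hU, ψ, h1, h2⟩ := h
  exact ⟨U, hU, fun x => Star.star (ψ x), h1.star, fun x hx => by
    simp only [h2 x hx, star_mul', RCLike.star_def, exp_conj]⟩

theorem LE.of_close {U : Set X} (hU : U ∈ 𝓝 q) (ha : ContinuousOn a (U \ {q}))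
    (hb : ContinuousOn b (U \ {q})) (h : ∀ᶠ x in 𝓝[≠] q, ‖a x - b x‖ < ‖b x‖) : LE a b q := by
  have hV := eventually_nhdsWithin_iff.1 h
  have n : ∀ x ∈ (U ∩ {x | x ∈ ({q}ᶜ : Set X) → ‖a x - b x‖ < ‖b x‖}) \ {q}, b x ≠ 0 :=
    fun x hx => norm_pos_iff.1 ((norm_nonneg _).trans_lt (hx.1.2 hx.2))
  have m : ∀ x ∈ (U ∩ {x | x ∈ ({q}ᶜ : Set X) → ‖a x - b x‖ < ‖b x‖}) \ {q},
      a x / b x ∈ slitPlane := fun x hx => by
    refine ball_one_subset_slitPlane ?_
    rw [mem_ball_iff_norm, div_sub_one (n x hx), norm_div, div_lt_one (norm_pos_iff.2 (n x hx))]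
    exact hx.1.2 hx.2
  refine ⟨_, inter_mem hU hV, fun x => log (a x / b x), ContinuousOn.clog
    ((ha.mono fun x hx => ⟨hx.1.1, hx.2⟩).div (hb.mono fun x hx => ⟨hx.1.1, hx.2⟩) n) m,
    fun x hx => ?_⟩
  rw [exp_log (slitPlane_ne_zero (m x hx)), div_mul_cancel₀ _ (n x hx)]

theorem LE.const_mul {α : ℂ} (h : α ≠ 0) (a : X → ℂ) (q : X) : LE (fun x => α * a x) a q :=
  ⟨univ, univ_mem, fun _ => log α, continuousOn_const, fun _ _ => by rw [exp_log h]⟩

/-- a continuous function which does not vanish at `q` -/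
theorem LE.of_ne {U : Set X} (hU : U ∈ 𝓝 q) (ha : ContinuousOn a U) (h : a q ≠ 0) : LE a 1 q := by
  refine (LE.of_close (b := fun _ => a q * 1) hU (ha.mono sdiff_subset) continuousOn_const
    (nhdsWithin_le_nhds ?_)).trans (LE.const_mul h 1 q)
  have := (ha.continuousAt hU).eventually (ball_mem_nhds _ (norm_pos_iff.2 h))
  exact this.mono fun x hx => by simpa [dist_eq_norm] using hx

theorem LE.normSq {U : Set X} (hU : U ∈ 𝓝 q) (ha : ContinuousOn a (U \ {q}))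
    (h : ∀ x ∈ U \ {q}, a x ≠ 0) : LE (a * fun x => Star.star (a x)) 1 q := by
  have m : ∀ x ∈ U \ {q}, a x * Star.star (a x) ∈ slitPlane := fun x hx => by
    rw [RCLike.star_def, mul_conj]
    exact ofReal_mem_slitPlane.2 (normSq_pos.2 (h x hx))
  exact ⟨U, hU, _, (ha.mul ha.star).clog m, fun x hx =>
    (exp_log (slitPlane_ne_zero (m x hx))).symm.trans (mul_one _).symm⟩

theorem LE.comp {Y : Type*} [TopologicalSpace Y] {k : Y → X} {y : Y} {O : Set Y} (hO : O ∈ 𝓝 y)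
    (hk : ContinuousOn k O) (hi : ∀ z ∈ O, k z = k y → z = y) (h : LE a b (k y)) :
    LE (a ∘ k) (b ∘ k) y := by
  obtain ⟨U, hU, ψ, h1, h2⟩ := h
  have m : MapsTo k ((O ∩ k ⁻¹' U) \ {y}) (U \ {k y}) := fun z hz =>
    ⟨hz.1.2, fun e => hz.2 (hi z hz.1.1 e)⟩
  exact ⟨_, inter_mem hO (hk.continuousAt hO hU), ψ ∘ k,
    h1.comp (hk.mono fun z hz => hz.1.1) m, fun z hz => h2 _ (m hz)⟩

/-- the degree around a point of the plane -/
theorem exists_deg_pt {φ : ℂ → ℂ} {U : Set ℂ} {z₀ : ℂ} (hU : U ∈ 𝓝 z₀)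
    (hc : ContinuousOn φ (U \ {z₀})) (h0 : ∀ z ∈ U \ {z₀}, φ z ≠ 0) :
    ∃ n : ℤ, LE φ (fun z => (z - z₀) ^ n) z₀ := by
  obtain ⟨r, hr, hs⟩ := nhds_basis_closedBall.mem_iff.1 hU
  have hr' : (r : ℂ) ≠ 0 := ofReal_ne_zero.2 hr.ne'
  have hm : ∀ u : Circle, z₀ + r * u ∈ U \ {z₀} := fun u =>
    ⟨hs (by simp [Circle.norm_coe, abs_of_pos hr]), by simp [hr.ne']⟩
  obtain ⟨n, hn⟩ := exists_deg_circle (φ := fun u => φ (z₀ + r * u))
    (hc.comp_continuous (by fun_prop) hm) fun u => h0 _ (hm u)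
  have n1 : ∀ z ∈ closedBall z₀ r \ {z₀}, (z - z₀) ^ n ≠ 0 := fun z hz =>
    zpow_ne_zero _ (sub_ne_zero.2 hz.2)
  have l0 : HasLog (fun z => φ z * ((z - z₀) ^ n)⁻¹) (sphere z₀ r) := by
    refine .of_subtype ?_
    let g : sphere z₀ r → Circle := fun z => ⟨(z - z₀) / r, by
      have := mem_sphere_iff_norm.1 z.2
      simp [Submonoid.unitSphere, this, abs_of_pos hr, hr.ne']⟩
    have cg : Continuous g := Continuous.subtype_mk (by fun_prop) _
    refine ((hn.comp cg.continuousOn (mapsTo_univ _ _)).mul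
      (HasLog.const (inv_ne_zero (zpow_ne_zero n hr')) _)).congr fun z _ => ?_
    have e : (g z : ℂ) = (z - z₀) / r := rfl
    rw [e, mul_div_cancel₀ _ hr', add_sub_cancel, mul_assoc, ← mul_inv, ← mul_zpow,
      div_mul_cancel₀ _ hr']
  have nm : ∀ t ∈ Icc (0:ℝ) 1, ∀ z ∈ closedBall z₀ r \ {z₀},
      ‖(((1 - t) * r / ‖z - z₀‖ + t : ℝ) : ℂ) * (z - z₀)‖ = (1 - t) * r + t * ‖z - z₀‖ :=
    fun t ht z hz => by
      have h1 : 0 < ‖z - z₀‖ := norm_pos_iff.2 (sub_ne_zero.2 hz.2)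
      have h2 := sub_nonneg.2 ht.2
      have h3 := ht.1
      rw [norm_mul, norm_real, Real.norm_of_nonneg (by positivity)]
      field_simp
  obtain ⟨ψ, h1, h2⟩ := HasLog.of_deform (S := closedBall z₀ r \ {z₀}) (S' := closedBall z₀ r \ {z₀})
    ((hc.mono (sdiff_subset_sdiff_left hs)).mul (ContinuousOn.inv₀ (ContinuousOn.zpow₀ (by fun_prop) n
      fun z hz => Or.inl (sub_ne_zero.2 hz.2)) n1))
    (fun z hz => mul_ne_zero (h0 z (sdiff_subset_sdiff_left hs hz)) (inv_ne_zero (n1 z hz)))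
    (h := fun w => z₀ + (((1 - w.1) * r / ‖w.2 - z₀‖ + w.1 : ℝ) : ℂ) * (w.2 - z₀))
    (continuousOn_const.add (ContinuousOn.mul (continuous_ofReal.comp_continuousOn
      (ContinuousOn.add (ContinuousOn.div (by fun_prop) (by fun_prop) fun w hw =>
        norm_ne_zero_iff.2 (sub_ne_zero.2 hw.2.2)) (by fun_prop))) (by fun_prop)))
    (fun t ht z hz => by
      have h1 : 0 < ‖z - z₀‖ := norm_pos_iff.2 (sub_ne_zero.2 hz.2)
      have h2 := mem_closedBall_iff_norm.1 hz.1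
      have h3 := nm t ht z hz
      refine ⟨by
        rw [mem_closedBall_iff_norm, add_sub_cancel_left, h3]; nlinarith [ht.1], fun e => ?_⟩
      rw [add_eq_left.1 (mem_singleton_iff.1 e), norm_zero] at h3
      nlinarith [ht.1, ht.2])
    (fun z hz => by
      rw [mem_sphere_iff_norm, add_sub_cancel_left, nm 0 ⟨le_rfl, zero_le_one⟩ z hz]; ring)
    (fun z _ => by simp) l0
  exact ⟨n, _, closedBall_mem_nhds _ hr, ψ, h1, fun z hz =>
    (inv_mul_cancel_right₀ (n1 z hz) _).symm.trans (congrArg (· * _) (h2 z hz))⟩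

/-- a map of the plane with positive Jacobian -/
theorem le_of_det {f : ℂ → ℂ} {B : ℂ →L[ℝ] ℂ} {w₀ : ℂ} (hf : HasFDerivAt f B w₀) (hB : 0 < B.det)
    {U : Set ℂ} (hU : U ∈ 𝓝 w₀) (hc : ContinuousOn f U) :
    LE (fun w => f w - f w₀) (fun w => w - w₀) w₀ := by
  let α : ℂ := (B 1 - I * B I) / 2
  let β : ℂ := (B 1 + I * B I) / 2
  have e : ∀ w, B w = α * w + β * (starRingEnd ℂ) w := fun w => by
    have h1 : B w = w.re • B 1 + w.im • B I := by
      rw [← map_smul, ← map_smul, ← map_add]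
      congr 1
      simp
    rw [h1]
    apply Complex.ext <;> simp [α, β] <;> ring
  have hd : B.det = normSq α - normSq β := by
    rw [ContinuousLinearMap.det, ← LinearMap.det_toMatrix basisOneI, Matrix.det_fin_two]
    simp [LinearMap.toMatrix_apply, α, β, normSq_apply]
    ring
  have hl : ‖β‖ < ‖α‖ := by
    rw [hd, normSq_eq_norm_sq, normSq_eq_norm_sq] at hB
    exact lt_of_pow_lt_pow_left₀ 2 (norm_nonneg _) (sub_pos.1 hB)
  have hα : α ≠ 0 := norm_pos_iff.1 ((norm_nonneg _).trans_lt hl)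
  refine (LE.of_close (a := fun w => f w - f w₀) (b := fun w => α * (w - w₀)) hU
    ((hc.mono sdiff_subset).sub continuousOn_const) (by fun_prop) ?_).trans (LE.const_mul hα _ _)
  filter_upwards [self_mem_nhdsWithin, nhdsWithin_le_nhds
    (hf.isLittleO.def (half_pos (sub_pos.2 hl)))] with w hw h1
  have h2 : 0 < ‖w - w₀‖ := norm_pos_iff.2 (sub_ne_zero.2 hw)
  have h3 : f w - f w₀ - α * (w - w₀) = (f w - f w₀ - B (w - w₀)) + β * (starRingEnd ℂ) (w - w₀) := by
    rw [e]; ring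
  have h4 := norm_add_le (f w - f w₀ - B (w - w₀)) (β * (starRingEnd ℂ) (w - w₀))
  rw [norm_mul, norm_conj] at h4
  rw [h3, norm_mul]
  nlinarith

/-! ### cut-off functions -/

theorem exists_cut [NormalSpace X] {t s : Set X} (ht : IsClosed t) (hs : IsOpen s) (h : t ⊆ s) :
    ∃ χ : X → ℝ, (∀ x ∈ t, χ x = 1) ∧ (∀ x ∉ s, χ x = 0) ∧ (∀ x, χ x ∈ Icc (0:ℝ) 1) ∧
      ∀ (A : Set X) (ψ : X → ℂ), ContinuousOn ψ (s ∩ A) → ContinuousOn (fun x => χ x * ψ x) A := by
  obtain ⟨v, v1, v2, v3⟩ := normal_exists_closure_subset ht hs h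
  obtain ⟨f, f0, f1, f2⟩ := exists_continuous_zero_one_of_isClosed v1.isClosed_compl ht
    (disjoint_compl_left_iff_subset.2 v2)
  refine ⟨f, f1, fun x hx => f0 fun h => hx (v3 (subset_closure h)), f2, fun A ψ hψ x hx => ?_⟩
  by_cases hx' : x ∈ s
  · exact ((continuous_ofReal.comp f.continuous).continuousWithinAt).mul
      ((hψ x ⟨hx', hx⟩).mono_of_mem_nhdsWithin
        (inter_mem (nhdsWithin_le_nhds (hs.mem_nhds hx')) self_mem_nhdsWithin))
  · refine ContinuousAt.continuousWithinAt (continuousAt_const (y := (0 : ℂ)).congr ?_)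
    filter_upwards [isClosed_closure.isOpen_compl.mem_nhds fun h => hx' (v3 h)] with y hy
    have : f y = 0 := f0 fun h => hy (subset_closure h)
    simp [this]

/-! ### the index -/

variable {V : Type*} [NormedAddCommGroup V] [NormedSpace ℂ V] {P : X → V →L[ℂ] V} {s s' : X → V}
  {g g' : X → ℂ} {A F : Set X}

/-- `s` is `g` times a frame near `q`, up to a logarithm -/
def Ix (P : X → V →L[ℂ] V) (s : X → V) (q : X) (g : X → ℂ) : Prop :=
  ∃ U ∈ 𝓝 q, ∃ (e : X → V) (φ : X → ℂ), IsFrame P e U ∧ (∀ x ∈ U \ {q}, s x = φ x • e x) ∧ LE φ g q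

theorem Ix.of_le (h : Ix P s q g) (h' : LE g g' q) : Ix P s q g' :=
  let ⟨U, hU, e, φ, h1, h2, h3⟩ := h; ⟨U, hU, e, φ, h1, h2, h3.trans h'⟩

theorem Ix.smul (h : Ix P s q g) (μ : X → ℂ) : Ix P (fun x => μ x • s x) q (μ * g) :=
  let ⟨U, hU, e, φ, h1, h2, h3⟩ := h
  ⟨U, hU, e, μ * φ, h1, fun x hx => by simp only [h2 x hx, smul_smul, Pi.mul_apply],
    (LE.refl μ q).mul h3⟩

theorem Ix.congr (h : Ix P s q g) (e' : ∀ᶠ x in 𝓝 q, s' x = s x) : Ix P s' q g :=
  let ⟨_, hU, e, φ, h1, h2, h3⟩ := h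
  ⟨_, inter_mem hU e', e, φ, h1.mono inter_subset_left,
    fun x hx => (hx.1.2 : s' x = s x).trans (h2 x ⟨hx.1.1, hx.2⟩), h3⟩

theorem ix_of_frame (h : IsFrame P s A) (hA : A ∈ 𝓝 q) : Ix P s q 1 :=
  ⟨A, hA, s, 1, h, fun _ _ => (one_smul _ _).symm, LE.refl _ _⟩

theorem Ix.comp {Y : Type*} [TopologicalSpace Y] {k : Y → X} {y : Y} {O : Set Y} (hO : O ∈ 𝓝 y)
    (hk : ContinuousOn k O) (hi : ∀ z ∈ O, k z = k y → z = y) (h : Ix P s (k y) g) :
    Ix (fun z => P (k z)) (fun z => s (k z)) y (g ∘ k) :=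
  let ⟨_, hU, _, φ, h1, h2, h3⟩ := h
  ⟨_, inter_mem hO (hk.continuousAt hO hU), _, φ ∘ k,
    h1.comp (hk.mono inter_subset_left) fun _ hz => hz.2,
    fun z hz => h2 _ ⟨hz.1.2, fun e => hz.2 (hi z hz.1.1 e)⟩, h3.comp hO hk hi⟩

theorem exists_frame_near (hP : IsLine P A) (hA : A ∈ 𝓝 q) : ∃ U ∈ 𝓝 q, ∃ e, IsFrame P e U := by
  obtain ⟨e, h1, h2, -⟩ := hP.rank q (mem_of_mem_nhds hA)
  have c : ContinuousOn (fun x => P x e) A := hP.cont.clm_apply continuousOn_const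
  exact ⟨_, inter_mem hA ((c.continuousAt hA).eventually_ne (h2.trans_ne h1)), _,
    c.mono inter_subset_left, fun x hx => hP.idem x hx.1 e, fun x hx => hx.2⟩

/-- existence of the index -/
theorem exists_ix (hP : IsLine P A) (hA : A ∈ 𝓝 q) (hs : IsFrame P s (A \ {q}))
    (c : OpenPartialHomeomorph X ℂ) (hq : q ∈ c.source) :
    ∃ n : ℤ, Ix P s q fun x => (c x - c q) ^ n := by
  obtain ⟨U, hU, e, he⟩ := exists_frame_near hP hA
  obtain ⟨φ, h1, h2, h3⟩ := (hP.mono (T := (A ∩ U) \ {q}) fun x hx => hx.1.1).ratio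
    (he.mono fun x hx => hx.1.2) (hs.mono fun x hx => ⟨hx.1.1, hx.2⟩)
  have m : MapsTo c.symm ((c.target ∩ c.symm ⁻¹' (A ∩ U)) \ {c q}) ((A ∩ U) \ {q}) := fun z hz =>
    ⟨hz.1.2, fun e => hz.2 (by rw [← mem_singleton_iff.1 e, c.right_inv hz.1.1]; rfl)⟩
  obtain ⟨n, hn⟩ := exists_deg_pt (φ := φ ∘ c.symm) (inter_mem (c.open_target.mem_nhds (c.map_source hq))
    ((c.continuousAt_symm (c.map_source hq)) (by rw [c.left_inv hq]; exact inter_mem hA hU)))
    (h1.comp (c.continuousOn_symm.mono fun z hz => hz.1.1) m) fun z hz => h2 _ (m hz)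
  have hc := c.open_source.mem_nhds hq
  refine ⟨n, _, inter_mem hA hU, e, φ, he.mono inter_subset_right, h3, (LE.of_eq ?_).trans
    (hn.comp hc c.continuousOn fun z hz e => c.injOn hz hq e)⟩
  filter_upwards [nhdsWithin_le_nhds hc] with x hx
  simp [c.left_inv hx]

variable [T4Space X]

/-- a singularity of index zero is removable -/
theorem remove (hA : A ∈ 𝓝 q) (hs : IsFrame P s (A \ {q})) (h : Ix P s q 1) {W : Set X}
    (hW : W ∈ 𝓝 q) : ∃ s', IsFrame P s' A ∧ ∀ x ∉ W, s' x = s x := by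
  classical
  obtain ⟨U, hU, e, φ, h1, h2, U', hU', ψ, h3, h4⟩ := h
  obtain ⟨B, hB, B1, B2⟩ := exists_mem_nhds_isClosed_subset
    (interior_mem_nhds.2 (inter_mem (inter_mem hU hU') hW))
  obtain ⟨χ, c1, c0, -, cc⟩ := exists_cut B1 isOpen_interior B2
  have f := hs.smul (φ := fun x => exp (-(χ x * ψ x))) (cc _ ψ (h3.mono fun x hx =>
    ⟨(interior_subset hx.1).1.2, hx.2.2⟩)).neg.cexp fun _ _ => exp_ne_zero _
  let t : X → V := fun x => if x = q then e q else exp (-(χ x * ψ x)) • s x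
  have t1 : ∀ x ∈ A \ {q}, t x = exp (-(χ x * ψ x)) • s x := fun x hx => if_neg hx.2
  have t2 : ∀ x ∈ B, t x = e x := fun x hx => by
    by_cases hx' : x = q
    · simp only [t, hx', if_true]
    · have := (interior_subset (B2 hx)).1
      simp only [t, if_neg hx', h2 x ⟨this.1, hx'⟩, h4 x ⟨this.2, hx'⟩, c1 x hx, smul_smul,
        ofReal_one, one_mul, Pi.one_apply, mul_one, ← exp_add, neg_add_cancel, exp_zero, one_smul]
  have f' := f.congr (Q := P) (fun _ _ => rfl) t1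
  have hq := mem_of_mem_nhds hB
  have hq' := mem_of_mem_nhds hU
  refine ⟨t, ⟨fun x hx => ?_, fun x hx => ?_, fun x hx => ?_⟩, fun x hx => ?_⟩
  · rcases eq_or_ne x q with rfl | hx'
    · exact ((h1.cont.continuousAt hU).congr
        (eventually_of_mem hB fun y hy => (t2 y hy).symm)).continuousWithinAt
    · exact (f'.cont x ⟨hx, hx'⟩).mono_of_mem_nhdsWithin
        (inter_mem self_mem_nhdsWithin (nhdsWithin_le_nhds (isOpen_ne.mem_nhds hx')))
  · rcases eq_or_ne x q with rfl | hx'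
    · rw [t2 x hq, h1.sec x hq']
    · exact f'.sec x ⟨hx, hx'⟩
  · rcases eq_or_ne x q with rfl | hx'
    · rw [t2 x hq]; exact h1.ne x hq'
    · exact f'.ne x ⟨hx, hx'⟩
  · have hx' : x ≠ q := fun e => hx (e ▸ mem_of_mem_nhds hW)
    simp [t, hx', c0 x fun h => hx (interior_subset h).2]

/-- the function `(z - b) / (z - a)`, cut off in a chart -/
theorem exists_mu (c : OpenPartialHomeomorph X ℂ) {q₀ : X} (h₀ : q₀ ∈ c.source) :
    ∃ W, IsOpen W ∧ q₀ ∈ W ∧ W ⊆ c.source ∧ ∀ q ∈ W, ∀ q' ∈ W, ∃ μ : X → ℂ, ContinuousOn μ {q}ᶜ ∧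
      (∀ x, x ≠ q → x ≠ q' → μ x ≠ 0) ∧ (∀ x ∈ W, x ≠ q → μ x * (c x - c q) = c x - c q') ∧
      ∀ x ∉ c.source, μ x = 1 := by
  obtain ⟨r, hr, hs⟩ := nhds_basis_closedBall.mem_iff.1 (c.open_target.mem_nhds (c.map_source h₀))
  obtain ⟨χ, c1, c0, c2, cc⟩ := exists_cut ((isCompact_closedBall (c q₀) r).image_of_continuousOn
    (c.continuousOn_symm.mono hs)).isClosed c.open_source
    (image_subset_iff.2 fun z hz => c.map_target (hs hz))
  have c3 : ∀ x ∈ c.source, c x ∈ closedBall (c q₀) r → χ x = 1 := fun x hx h =>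
    c1 x ⟨_, h, c.left_inv hx⟩
  refine ⟨c.source ∩ c ⁻¹' ball (c q₀) (r / 3), c.isOpen_inter_preimage isOpen_ball,
    ⟨h₀, mem_ball_self (by positivity)⟩, inter_subset_left, fun q hq q' hq' => ?_⟩
  have n : ∀ x ∈ c.source, x ≠ q → c x - c q ≠ 0 := fun x hx h e =>
    h (c.injOn hx hq.1 (sub_eq_zero.1 e))
  have k : ∀ x ∈ c.source, c x ∈ closedBall (c q₀) r → x ≠ q →
      (1 + χ x * ((c q - c q') / (c x - c q))) * (c x - c q) = c x - c q' := fun x hx h h' => by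
    have := n x hx h'
    rw [c3 x hx h]
    field_simp
    push_cast
    ring
  refine ⟨fun x => 1 + χ x * ((c q - c q') / (c x - c q)), continuousOn_const.add
    (cc _ _ (continuousOn_const.div ((c.continuousOn.mono inter_subset_left).sub continuousOn_const)
      fun x hx => n x hx.1 hx.2)), fun x h h' e => ?_, fun x hx =>
    k x hx.1 (ball_subset_closedBall.trans (closedBall_subset_closedBall (by linarith)) hx.2),
    fun x hx => by simp [c0 x hx]⟩
  simp only at e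
  by_cases hx : x ∈ c.source
  · by_cases hb : c x ∈ closedBall (c q₀) r
    · have := k x hx hb h
      rw [e, zero_mul] at this
      exact h' (c.injOn hx hq'.1 (sub_eq_zero.1 this.symm))
    · have h1 : dist (c q) (c q₀) < r / 3 := hq.2
      have h2 : dist (c q') (c q₀) < r / 3 := hq'.2
      have h3 : r < dist (c x) (c q₀) := not_le.1 hb
      have h4 := dist_triangle_right (c q) (c q') (c q₀)
      have h5 := dist_triangle (c x) (c q) (c q₀)
      have h6 : ‖(c q - c q') / (c x - c q)‖ < 1 := by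
        rw [norm_div, div_lt_one (norm_pos_iff.2 (n x hx h)), ← dist_eq_norm, ← dist_eq_norm]
        linarith
      have h7 := congrArg norm (eq_neg_of_add_eq_zero_right e)
      rw [norm_mul, norm_neg, norm_one, norm_real, Real.norm_of_nonneg (c2 x).1] at h7
      nlinarith [c2 x |>.1, c2 x |>.2, norm_nonneg ((c q - c q') / (c x - c q))]
  · simp [c0 x hx] at e

/-- moving a singularity inside a chart -/
theorem move (c : OpenPartialHomeomorph X ℂ) {q₀ : X} (h₀ : q₀ ∈ c.source) :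
    ∃ W, IsOpen W ∧ q₀ ∈ W ∧ W ⊆ c.source ∧ ∀ q ∈ W, ∀ q' ∈ W, q ≠ q' → ∀ (s : X → V) (F : Set X)
      (n : ℤ), IsClosed F → q ∉ F → IsFrame P s (F ∪ {q})ᶜ → (Ix P s q fun x => (c x - c q) ^ n) →
      ∃ s', IsFrame P s' (F ∪ {q'})ᶜ ∧ (q' ∉ F → Ix P s' q' fun x => (c x - c q') ^ n) ∧
        ∀ x ∉ c.source, s' x = s x := by
  obtain ⟨W, W1, W2, W3, h⟩ := exists_mu c h₀
  refine ⟨W, W1, W2, W3, fun q hq q' hq' hn s F n hF hqF hs hi => ?_⟩
  obtain ⟨μ, m1, m2, m3, m4⟩ := h q hq q' hq'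
  have one : ∀ x ∈ W, ∀ y ∈ W, x ≠ y → LE (fun z => c z - c y) 1 x := fun x hx y hy h =>
    LE.of_ne (c.open_source.mem_nhds (W3 hx)) (c.continuousOn.sub continuousOn_const)
      fun e => h (c.injOn (W3 hx) (W3 hy) (sub_eq_zero.1 e))
  obtain ⟨B, hB, B1, B2⟩ := exists_mem_nhds_isClosed_subset
    (inter_mem (isOpen_ne.mem_nhds hn) (W1.mem_nhds hq))
  obtain ⟨s', h1, h2⟩ := remove (A := (F ∪ {q'})ᶜ) (s := fun x => μ x ^ n • s x)
    ((hF.union isClosed_singleton).isOpen_compl.mem_nhds (by simp [hqF, hn]))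
    ((hs.mono fun x hx h => h.elim (fun h => hx.1 (Or.inl h)) hx.2).smul
      ((m1.mono fun x hx => hx.2).zpow₀ n fun x hx => Or.inl (m2 x hx.2 fun h => hx.1 (Or.inr h)))
      fun x hx => zpow_ne_zero _ (m2 x hx.2 fun h => hx.1 (Or.inr h)))
    ((hi.smul fun x => μ x ^ n).of_le ((LE.of_eq (b := fun x => (c x - c q') ^ n) (by
      filter_upwards [self_mem_nhdsWithin, nhdsWithin_le_nhds (W1.mem_nhds hq)] with x hx hx'
      simp only [Pi.mul_apply, ← mul_zpow, m3 x hx' hx])).trans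
      (((one q hq q' hq' hn).zpow n).trans (.of_eq (.of_forall fun _ => by simp))))) hB
  refine ⟨s', h1, fun hq'F => ?_, fun x hx => by
    rw [h2 x fun h => hx (W3 (B2 h).2), m4 x hx, _root_.one_zpow, one_smul]⟩
  refine (((ix_of_frame hs ((hF.union isClosed_singleton).isOpen_compl.mem_nhds
    (by simp [hq'F, hn.symm]))).smul fun x => μ x ^ n).of_le ?_).congr
    (eventually_of_mem (B1.isOpen_compl.mem_nhds fun h => (B2 h).1 rfl) h2)
  refine (LE.of_eq (b := fun x => (μ * 1) x ^ n) (.of_forall fun _ => by simp)).trans (LE.zpow ?_ n)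
  refine ((LE.refl μ q').mul (one q' hq' q hq hn.symm).symm).trans (.of_eq ?_)
  filter_upwards [nhdsWithin_le_nhds (W1.mem_nhds hq'),
    nhdsWithin_le_nhds (isOpen_ne.mem_nhds hn.symm)] with x hx hx'
  exact m3 x hx hx'

/-! ### connected surfaces -/

variable [PreconnectedSpace X]

theorem move_pt (hP : IsLine P univ) (hc : ∀ x : X, ∃ c : OpenPartialHomeomorph X ℂ, x ∈ c.source)
    (hF : IsClosed F) (q q' : X) : (∃ s, IsFrame P s (F ∪ {q})ᶜ) → ∃ s, IsFrame P s (F ∪ {q'})ᶜ := by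
  refine PreconnectedSpace.induction₂'
    (fun q q' => (∃ s, IsFrame P s (F ∪ {q})ᶜ) → ∃ s, IsFrame P s (F ∪ {q'})ᶜ) (fun x => ?_)
    ⟨fun _ _ _ h h' => h' ∘ h⟩ q q'
  obtain ⟨c, hx⟩ := hc x
  obtain ⟨W, W1, W2, W3, h⟩ := move (P := P) c hx
  have key : ∀ q ∈ W, ∀ q' ∈ W, (∃ s, IsFrame P s (F ∪ {q})ᶜ) → ∃ s, IsFrame P s (F ∪ {q'})ᶜ := by
    rintro q hq q' hq' ⟨s, hs⟩
    rcases eq_or_ne q q' with rfl | hn
    · exact ⟨s, hs⟩
    by_cases hqF : q ∈ F
    · exact ⟨s, hs.mono fun x hx h => hx (Or.inl (h.elim id fun e => e ▸ hqF))⟩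
    obtain ⟨n, hi⟩ := exists_ix (hP.mono (subset_univ Fᶜ)) (hF.isOpen_compl.mem_nhds hqF)
      (hs.mono fun x hx h => h.elim hx.1 hx.2) c (W3 hq)
    obtain ⟨s', h1, -⟩ := h q hq q' hq' hn s F n hF hqF hs hi
    exact ⟨s', h1⟩
  filter_upwards [W1.mem_nhds W2] with y hy using ⟨key x W2 y hy, key y hy x W2⟩

/-- a frame off a finite set gives a frame off any point -/
theorem off_point (hP : IsLine P univ) (hc : ∀ x : X, ∃ c : OpenPartialHomeomorph X ℂ, x ∈ c.source)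
    (hF : F.Finite) (q : X) : (∃ s, IsFrame P s (F ∪ {q})ᶜ) → ∃ s, IsFrame P s {q}ᶜ := by
  induction F, hF using Set.Finite.induction_on with
  | empty => simp
  | @insert x F _ hF ih =>
    intro h
    rw [insert_union, ← union_singleton] at h
    have := move_pt hP hc (hF.union (finite_singleton q)).isClosed x q h
    rw [union_assoc, union_self] at this
    exact ih this

/-- an oriented atlas -/
structure Atl (z : X → OpenPartialHomeomorph X ℂ) : Prop where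
  mem : ∀ x, x ∈ (z x).source
  le : ∀ x, ∀ᶠ y in 𝓝 x, LE (fun w => z x w - z x y) (fun w => z y w - z y y) y

/-- the normal form `n [q]` -/
def Ty (P : X → V →L[ℂ] V) (z : X → OpenPartialHomeomorph X ℂ) (q : X) (n : ℤ) : Prop :=
  ∃ s, IsFrame P s {q}ᶜ ∧ Ix P s q fun x => (z q x - z q q) ^ n

variable {z : X → OpenPartialHomeomorph X ℂ} {n : ℤ}

theorem exists_ty (hz : Atl z) (hP : IsLine P univ) (hF : F.Finite) (hs : IsFrame P s Fᶜ) (q : X) :
    ∃ n, Ty P z q n := by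
  obtain ⟨t, ht⟩ := off_point hP (fun x => ⟨_, hz.mem x⟩) hF q
    ⟨s, hs.mono (compl_subset_compl.2 subset_union_left)⟩
  obtain ⟨n, hn⟩ := exists_ix hP univ_mem (ht.mono fun _ hx => hx.2) _ (hz.mem q)
  exact ⟨n, t, ht, hn⟩

theorem Ty.move (hz : Atl z) (q q' : X) : Ty P z q n → Ty P z q' n := by
  refine PreconnectedSpace.induction₂' (fun q q' => Ty P z q n → Ty P z q' n) (fun x => ?_)
    ⟨fun _ _ _ h h' => h' ∘ h⟩ q q'
  obtain ⟨W, W1, W2, -, h⟩ := Lsf39.move (P := P) _ (hz.mem x)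
  filter_upwards [W1.mem_nhds W2, hz.le x] with y hy hl
  rcases eq_or_ne x y with rfl | hn
  · exact ⟨id, id⟩
  constructor
  · rintro ⟨s, h1, h2⟩
    obtain ⟨s', h3, h4, -⟩ := h x W2 y hy hn s ∅ n isClosed_empty id (by simpa using h1) h2
    exact ⟨s', by simpa using h3, (h4 id).of_le (hl.zpow n)⟩
  · rintro ⟨s, h1, h2⟩
    obtain ⟨s', h3, h4, -⟩ := h y hy x W2 hn.symm s ∅ n isClosed_empty id (by simpa using h1)
      (h2.of_le (hl.zpow n).symm)
    exact ⟨s', by simpa using h3, h4 id⟩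

theorem Ty.comp {k : X → X} (hk : Continuous k) (hi : Injective k) (h : Ty P z (k q) n)
    (hl : LE (fun w => z (k q) (k w) - z (k q) (k q)) (fun w => z q w - z q q) q) :
    Ty (fun x => P (k x)) z q n :=
  let ⟨_, h1, h2⟩ := h
  ⟨_, h1.comp hk.continuousOn fun _ hx e => hx (hi e),
    (h2.comp univ_mem hk.continuousOn fun _ _ e => hi e).of_le (hl.zpow n)⟩

variable {κ l : Type*} [Fintype κ] [Fintype l] [DecidableEq κ] [DecidableEq l]

/-- two sided multiplication -/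
def sw (p' : Matrix l l ℂ) (p : Matrix κ κ ℂ) : (l → κ → ℂ) →L[ℂ] (l → κ → ℂ) :=
  LinearMap.toContinuousLinearMap
    { toFun m := fun i j => (p' * Matrix.of m * p) i j
      map_add' a b := by
        show p' * (Matrix.of a + Matrix.of b) * p = p' * Matrix.of a * p + p' * Matrix.of b * p
        rw [Matrix.mul_add, Matrix.add_mul]
      map_smul' r a := by
        show p' * (r • Matrix.of a) * p = r • (p' * Matrix.of a * p)
        rw [Matrix.mul_smul, Matrix.smul_mul] }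

omit [T4Space X] [PreconnectedSpace X] in
theorem frame_sw {p : X → Matrix κ κ ℂ} {p' : X → Matrix l l ℂ} (hp : ∀ x, (p x)ᴴ = p x)
    {s : X → κ → ℂ} {s' : X → l → ℂ} (h : IsFrame (fun x => clm (p x)) s A)
    (h' : IsFrame (fun x => clm (p' x)) s' A) :
    IsFrame (fun x => sw (p' x) (p x)) (fun x i j => s' x i * star (s x j)) A :=
  ⟨continuousOn_pi.2 fun i => continuousOn_pi.2 fun j => (continuousOn_pi.1 h'.cont i).mul
    (continuousOn_pi.1 h.cont j).star, fun x hx => sand_vmv (hp x) (h.sec x hx) (h'.sec x hx),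
    fun x hx => vmv_ne (h.ne x hx) (h'.ne x hx)⟩

/-- lines with the same normal form are isomorphic -/
theorem Ty.hom (hz : Atl z) {p : X → Matrix κ κ ℂ} {p' : X → Matrix l l ℂ} (hp : ∀ x, (p x)ᴴ = p x)
    (h : Ty (fun x => clm (p x)) z q n) (h' : Ty (fun x => clm (p' x)) z q n) :
    ∃ m : X → Matrix l κ ℂ, Continuous m ∧ (∀ x, p' x * m x * p x = m x) ∧ ∀ x, m x ≠ 0 := by
  obtain ⟨s, h1, U, hU, e, φ, h2, h3, h4⟩ := h
  obtain ⟨s', h1', U', hU', e', φ', h2', h3', h4'⟩ := h'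
  have n0 : ∀ x ∈ (z q).source \ {q}, z q x - z q q ≠ 0 := fun x hx e =>
    hx.2 ((z q).injOn hx.1 (hz.mem q) (sub_eq_zero.1 e))
  obtain ⟨m, hm, -⟩ := remove (A := univ) univ_mem ((frame_sw hp h1 h1').mono fun _ hx => hx.2)
    ⟨_, inter_mem hU hU', _, φ' * fun x => star (φ x),
      frame_sw hp (h2.mono inter_subset_left) (h2'.mono inter_subset_right), fun x hx => by
        funext i j
        simp only [h3 x ⟨hx.1.1, hx.2⟩, h3' x ⟨hx.1.2, hx.2⟩, Pi.smul_apply, Pi.mul_apply,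
          smul_eq_mul, star_mul']
        ring,
      (h4'.mul h4.star).trans (LE.normSq ((z q).open_source.mem_nhds (hz.mem q))
        ((((z q).continuousOn.mono sdiff_subset).sub continuousOn_const).zpow₀ n
          fun x hx => Or.inl (n0 x hx)) fun x hx => zpow_ne_zero _ (n0 x hx))⟩ univ_mem
  exact ⟨fun x => Matrix.of (m x), continuousOn_univ.1 hm.cont, fun x => hm.sec x trivial,
    fun x => hm.ne x trivial⟩

end

end Crest.Agent.X212.Lsf39
end

-- ▼ part X212/Lsf39/Main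

/-!
# X212 / Lsf39 / Main (helper39): lines on a closed oriented surface

* `ae_isolated`, `finite_zeros` : a generic section `p v` has finitely many zeros;
* `zc a` : positive complex charts, `le_zc` (positive local maps), `atl_zc`;
* `lsurf` : a line on a connected closed surface is isomorphic to its pull-back under an
  orientation preserving diffeomorphism.
-/

set_option autoImplicit false
set_option linter.unusedSectionVars false

open Set Function Filter Matrix MeasureTheory Module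
open scoped Topology ContDiff Manifold
open Crest.Agent.R208 Crest.Agent.R208.F Crest.Agent.X212.Dr59 Crest.Agent.X212.Int54
  Crest.Agent.X212.Pic56 Crest.Agent.X212.Pj41 Crest.Agent.X212.Orx52 Crest.Agent.X212.Sep15
  Crest.Agent.X212.Line51

namespace Crest.Agent.X212.Lsf39

noncomputable section

/-- almost every value has isolated preimages -/
theorem ae_isolated {E : Type*} [NormedAddCommGroup E] [NormedSpace ℝ E] [FiniteDimensional ℝ E]
    [MeasurableSpace E] [BorelSpace E] (μ : Measure E) [μ.IsAddHaarMeasure] (G : E → E) :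
    ∀ᵐ v ∂μ, ∀ w, DifferentiableAt ℝ G w → G w = v → ∀ᶠ w' in 𝓝[≠] w, G w' ≠ v := by
  have h := addHaar_image_eq_zero_of_det_fderivWithin_eq_zero μ (f := G) (f' := fderiv ℝ G)
    (s := {w | DifferentiableAt ℝ G w ∧ (fderiv ℝ G w).det = 0})
    (fun w hw => hw.1.hasFDerivAt.hasFDerivWithinAt) fun w hw => hw.2
  filter_upwards [measure_eq_zero_iff_ae_notMem.1 h] with v hv w h1 h2
  obtain ⟨K, -, hK⟩ := LinearMap.exists_antilipschitzWith (fderiv ℝ G w : E →ₗ[ℝ] E)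
    (by_contra fun h0 => hv ⟨w, ⟨h1, LinearMap.det_eq_zero_iff_ker_ne_bot.2 h0⟩, h2⟩)
  exact h1.hasFDerivAt.eventually_ne ⟨K, hK⟩

variable {κ l : Type*} [Fintype κ] [Fintype l]

/-- a generic section has finitely many zeros -/
theorem finite_zeros {X : Type*} [TopologicalSpace X] [CompactSpace X] {p : X → Matrix κ κ ℂ}
    (cp : Continuous p) (hp : ∀ x, (p x).trace = 1) {z : X → OpenPartialHomeomorph X ℂ}
    (hz : ∀ x, x ∈ (z x).source)
    (hd : ∀ x i j, ∀ w ∈ (z x).target, DifferentiableAt ℝ (fun w => p ((z x).symm w) i j) w) :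
    ∃ v, {x | p x *ᵥ v = 0}.Finite := by
  classical
  obtain ⟨t, ht⟩ := isCompact_univ.elim_finite_subcover _ (fun x => (z x).open_source)
    fun x _ => mem_iUnion.2 ⟨x, hz x⟩
  let G : X → κ → (κ → ℂ) → κ → ℂ := fun x i w =>
    w - ((∑ j, p ((z x).symm (w i)) i j * w j) / p ((z x).symm (w i)) i i) • Pi.single i 1
  obtain ⟨v, hv⟩ := ((ae_ball_iff t.countable_toSet).2 fun x _ =>
    ae_all_iff.2 fun i => ae_isolated (volume : Measure (κ → ℂ)) (G x i)).exists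
  refine ⟨v, (isClosed_eq (cp.matrix_mulVec continuous_const) continuous_const).isCompact.finite
    (isDiscrete_iff_nhdsNE.2 fun y hy => inf_principal_eq_bot.2 ?_)⟩
  obtain ⟨x, hx, hxy⟩ := mem_iUnion₂.1 (ht (mem_univ y))
  obtain ⟨i, hi⟩ : ∃ i, p y i i ≠ 0 := by
    by_contra h
    push Not at h
    simpa [trace, h] using hp y
  let w : X → κ → ℂ := fun y' => update v i (z x y')
  have wi : ∀ y' ∈ (z x).source, (z x).symm (w y' i) = y' := fun y' h => by
    simp [w, (z x).left_inv h]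
  have key : ∀ y' ∈ (z x).source, p y' i i ≠ 0 → p y' *ᵥ v = 0 → G x i (w y') = v := by
    intro y' h1 h2 h3
    have h4 : ∑ j, p y' i j * w y' j = p y' i i * (z x y' - v i) := by
      have h5 : ∑ j, p y' i j * v j = 0 := congrFun h3 i
      rw [← Finset.add_sum_erase _ _ (Finset.mem_univ i)] at h5 ⊢
      rw [Finset.sum_congr rfl fun j hj => by rw [show w y' j = v j from
        update_of_ne (Finset.ne_of_mem_erase hj) _ _]]
      simp only [w, update_self]
      linear_combination h5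
    simp only [G, wi y' h1, h4, mul_div_cancel_left₀ _ h2]
    funext j
    rcases eq_or_ne j i with rfl | hj
    · simp [w]
    · simp [w, hj]
  have dp : ∀ j, DifferentiableAt ℝ (fun w : κ → ℂ => p ((z x).symm (w i)) i j) (w y) := fun j =>
    (hd x i j _ (by simpa [w] using (z x).map_source hxy)).comp (w y) (differentiableAt_apply i _)
  have d1 := (DifferentiableAt.fun_sum (u := Finset.univ) fun j _ =>
    (dp j).fun_mul (differentiableAt_apply j _)).fun_mul ((dp i).fun_inv (by rwa [wi y hxy]))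
  have h1 := hv x hx i (w y) (differentiableAt_id.sub (d1.smul_const _)) (key y hxy hi hy)
  have hs := (z x).open_source.mem_nhds hxy
  have h2 : Tendsto w (𝓝[≠] y) (𝓝[≠] (w y)) := by
    refine tendsto_nhdsWithin_iff.2 ⟨tendsto_nhdsWithin_of_tendsto_nhds
      (continuousAt_const.update i ((z x).continuousAt hxy)), ?_⟩
    filter_upwards [self_mem_nhdsWithin, nhdsWithin_le_nhds hs] with y' h3 h4 h5
    exact h3 (by rw [← wi y' h4, mem_singleton_iff.1 h5, wi y hxy]; rfl)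
  filter_upwards [h2.eventually h1, nhdsWithin_le_nhds hs,
    nhdsWithin_le_nhds ((cp.matrix_elem i i).continuousAt.eventually_ne hi)] with y' h3 h4 h5 h6
  exact h3 (key y' h4 h5 h6)

/-! ### positive charts -/

theorem rk2 : finrank ℝ ℂ = finrank ℝ (EE 2) := by simp

theorem exists_io (t : ℝ) : ∃ ι : EE 2 ≃L[ℝ] ℂ, t ≠ 0 → 0 < t * jac (ι : EE 2 →L[ℝ] ℂ) := by
  let e : EE 2 ≃L[ℝ] ℂ := (eqv rk2).symm
  by_cases h : 0 < t * jac (e : EE 2 →L[ℝ] ℂ)
  · exact ⟨e, fun _ => h⟩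
  refine ⟨e.trans Complex.conjCLE, fun ht => ?_⟩
  have h1 := jac_comp rk2 rfl (Complex.conjCLE : ℂ →L[ℝ] ℂ) (e : EE 2 →L[ℝ] ℂ)
  have h2 : jac (Complex.conjCLE : ℂ →L[ℝ] ℂ) = -1 := by
    rw [jac_self]; exact Complex.det_conjAe
  rw [h2] at h1
  rw [show ((e.trans Complex.conjCLE : EE 2 ≃L[ℝ] ℂ) : EE 2 →L[ℝ] ℂ) =
    (Complex.conjCLE : ℂ →L[ℝ] ℂ).comp (e : EE 2 →L[ℝ] ℂ) from rfl, h1]
  have := (not_lt.1 h).lt_of_ne (mul_ne_zero ht (jac_ne_zero e))
  linarith

variable {R : Type*} [TopologicalSpace R] [ChartedSpace (EE 2) R] [IsManifold (𝓡 2) ∞ R]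
  {a : R → Ext (EE 2)}

/-- the linear part of the positive chart -/
def io (a : R → Ext (EE 2)) (x : R) : EE 2 ≃L[ℝ] ℂ := (exists_io (tp (EE 2) (a x))).choose

/-- positive complex charts -/
def zc (a : R → Ext (EE 2)) (x : R) : OpenPartialHomeomorph R ℂ :=
  (chartAt (EE 2) x).transHomeomorph (io a x).toHomeomorph

theorem zc_eq (x : R) : (zc a x : R → ℂ) = io a x ∘ extChartAt (𝓡 2) x := rfl

theorem zc_symm (x : R) : ((zc a x).symm : ℂ → R) = (extChartAt (𝓡 2) x).symm ∘ (io a x).symm := rfl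

theorem mem_zc (x : R) : x ∈ (zc a x).source := mem_chart_source _ x

theorem sm_zc {x y : R} (h : y ∈ (zc a x).source) : ContMDiffAt (𝓡 2) 𝓘(ℝ, ℂ) ∞ (zc a x) y :=
  (io a x).contDiff.contDiffAt.comp_contMDiffAt (contMDiffAt_extChartAt' h)

theorem sm_zc_symm {x : R} {w : ℂ} (h : w ∈ (zc a x).target) :
    ContMDiffAt 𝓘(ℝ, ℂ) (𝓡 2) ∞ (zc a x).symm w :=
  (contMDiffAt_chart_symm (x := x) (u := (io a x).symm w) (by simpa [zc] using h)).comp w
    (io a x).symm.contDiff.contDiffAt.contMDiffAt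

theorem mf_zc (x : R) : mf (𝓡 2) 𝓘(ℝ, ℂ) (zc a x) x = io a x := by
  rw [zc_eq, mf_comp (io a x).differentiableAt.mdifferentiableAt
    ((contMDiffAt_chart (mem_extChartAt_source x)).mdifferentiableAt (by simp)), mf_chart_self,
    mf_eq_fderiv, (io a x).fderiv]
  rfl

theorem pos_zc (ha : Ori (𝓡 2) a) (x : R) :
    0 < tp (EE 2) (a x) * jac (mf (𝓡 2) 𝓘(ℝ, ℂ) (zc a x) x) := by
  rw [mf_zc]
  exact (exists_io _).choose_spec (ha.ne x)

/-- a positive local map is equivalent to the positive chart -/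
theorem le_zc (ha : Ori (𝓡 2) a) {c : R → ℂ} {y : R} (hc : ContMDiffAt (𝓡 2) 𝓘(ℝ, ℂ) ∞ c y)
    (h : 0 < tp (EE 2) (a y) * jac (mf (𝓡 2) 𝓘(ℝ, ℂ) c y)) :
    LE (fun w => c w - c y) (fun w => zc a y w - zc a y y) y := by
  have hy := mem_zc (a := a) y
  have e0 := (zc a y).left_inv hy
  have s1 := sm_zc_symm ((zc a y).map_source hy)
  have s2 : ContMDiffAt 𝓘(ℝ, ℂ) 𝓘(ℝ, ℂ) ∞ (c ∘ (zc a y).symm) (zc a y y) :=
    ContMDiffAt.comp _ (by rwa [e0]) s1
  have ev : (c ∘ (zc a y).symm) ∘ zc a y =ᶠ[𝓝 y] c :=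
    eventually_of_mem ((zc a y).open_source.mem_nhds hy) fun x hx => congrArg c ((zc a y).left_inv hx)
  have h1 := mf_congr (J := 𝓡 2) (I := 𝓘(ℝ, ℂ)) ev
  rw [mf_comp (s2.mdifferentiableAt (by simp)) ((sm_zc hy).mdifferentiableAt (by simp)),
    mf_eq_fderiv] at h1
  rw [← h1, jac_comp rk2 rfl, jac_self, ← mul_assoc] at h
  obtain ⟨U, hU, cU⟩ := (s2.contDiffAt.of_le (m := 0) (by simp)).contDiffOn le_rfl (by simp)
  have := (le_of_det (s2.contDiffAt.differentiableAt (by simp)).hasFDerivAt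
    ((mul_pos_iff_of_pos_left (pos_zc ha y)).1 h) hU cU.continuousOn).comp
    ((zc a y).open_source.mem_nhds hy) (zc a y).continuousOn fun x hx e => (zc a y).injOn hx hy e
  refine (LE.of_eq (nhdsWithin_le_nhds (ev.mono fun x hx => ?_))).trans this
  simp only [Function.comp_apply, e0] at hx ⊢
  rw [hx]

theorem atl_zc (ha : Ori (𝓡 2) a) : Atl (zc a) := by
  refine ⟨mem_zc, fun x => ?_⟩
  have e : ∀ y, tp (EE 2) (pm (𝓡 2) 𝓘(ℝ, ℂ) (zc a x) (fun _ => vol0 ℂ) y) =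
      jac (mf (𝓡 2) 𝓘(ℝ, ℂ) (zc a x) y) := fun y => by
    rw [pm_apply, tp_pb rk2, tp_vol0, mul_one]
  have c := contAt_rat (ha.sm x) (ha.ne x) (SmAt.pm (sm_zc (a := a) (mem_zc x)) (ori_model.sm _))
  filter_upwards [c.eventually (lt_mem_nhds (pos_rat.2 (e x ▸ pos_zc ha x))),
    (zc a x).open_source.mem_nhds (mem_zc x)] with y h1 h2
  exact le_zc ha (sm_zc h2) (e y ▸ pos_rat.1 h1)

variable [T2Space R] [CompactSpace R] [PreconnectedSpace R]

theorem exists_ty_zc [DecidableEq κ] (ha : Ori (𝓡 2) a) {p : R → Matrix κ κ ℂ}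
    (sp : ∀ x, MSm (𝓡 2) p x) (hp : ∀ x, Rk1 (p x)) (q : R) :
    ∃ n, Ty (fun x => clm (p x)) (zc a) q n := by
  have cp : Continuous p := continuous_iff_continuousAt.2 fun x => (sp x).continuousAt
  obtain ⟨v, hv⟩ := finite_zeros cp (fun x => (hp x).trace_eq) (mem_zc (a := a)) fun x i j w hw =>
    ((sp _ i j).comp w (sm_zc_symm hw)).contDiffAt.differentiableAt (by simp)
  exact exists_ty (atl_zc ha) (isLine_clm cp.continuousOn fun x _ => hp x) hv (s := fun x => p x *ᵥ v)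
    ⟨(cp.matrix_mulVec continuous_const).continuousOn,
      fun x _ => by rw [clm_apply, mulVec_mulVec, (hp x).idem], fun x hx => hx⟩ q

/-- the normal form is invariant under orientation preserving diffeomorphisms -/
theorem Ty.pull {V : Type*} [NormedAddCommGroup V] [NormedSpace ℂ V] {P : R → V →L[ℂ] V}
    (ha : Ori (𝓡 2) a) (s : R ≃ₘ^∞⟮𝓡 2, 𝓡 2⟯ R) (hs : SameOn a (pm (𝓡 2) (𝓡 2) s a) univ)
    {q : R} {n : ℤ} (h : Ty P (zc a) q n) : Ty (fun x => P (s x)) (zc a) q n := by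
  refine (h.move (atl_zc ha) q (s q)).comp s.continuous s.injective
    (le_zc ha (c := zc a (s q) ∘ s) ((sm_zc (mem_zc _)).comp q (s.contMDiff q)) ?_)
  have h1 := hs q trivial
  have h2 := pos_zc ha (s q)
  rw [tp_ld (s.isLocalDiffeomorph q), ← mul_assoc] at h1
  rw [mf_comp ((sm_zc (mem_zc _)).mdifferentiableAt (by simp))
    ((s.contMDiff q).mdifferentiableAt (by simp)), jac_comp rfl rk2, ← mul_assoc]
  exact pos_trans h1 h2

/-- **LSURF** -/
theorem lsurf' (ha : Ori (𝓡 2) a) (s : R ≃ₘ^∞⟮𝓡 2, 𝓡 2⟯ R)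
    (hs : SameOn a (pm (𝓡 2) (𝓡 2) s a) univ) {L : Ln (EE 2) R κ} (hL : L.On (𝓡 2) univ) :
    ∃ u, Uni (𝓡 2) (L.pull (𝓡 2) (𝓡 2) s).p L.p u univ := by
  classical
  rcases isEmpty_or_nonempty R with h | ⟨⟨q⟩⟩
  · exact ⟨0, fun x => isEmptyElim x, fun x => isEmptyElim x⟩
  have hp : ∀ x, Rk1 (L.p x) := fun x => hL.rk1 trivial
  obtain ⟨n, hn⟩ := exists_ty_zc ha (fun x => hL.sm x trivial) hp q
  obtain ⟨m, h1, h2, h3⟩ := (hn.pull ha s hs).hom (atl_zc ha) (fun x => (hp _).herm) hn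
  obtain ⟨u, hu⟩ := exists_liso (I := 𝓡 2) (fun x => (hL.sm _ trivial).comp (s.contMDiff x))
    (fun x => hL.sm x trivial) (fun x => hp _) hp h1 h2 h3
  exact ⟨u, uni_of_liso hu fun _ => (hp _).idem⟩

theorem lsurf (R : CM 2) [PreconnectedSpace R] {a : R → Ext (EE 2)} (ha : Ori (𝓡 2) a)
    (s : R ≃ₘ^∞⟮𝓡 2, 𝓡 2⟯ R) (hs : SameOn a (pm (𝓡 2) (𝓡 2) s a) univ) {L : Ln (EE 2) R κ}
    (hL : L.On (𝓡 2) univ) : ∃ u, Uni (𝓡 2) (L.pull (𝓡 2) (𝓡 2) s).p L.p u univ :=
  lsurf' ha s hs hL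

end

end Crest.Agent.X212.Lsf39
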